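import Vale.Agent.N264X.Br
import Vale.Agent.N264X.S.Main
import Vale.Agent.N264X.F.All
import Vale.Agent.P264Z.A.Shoot
import Vale.Agent.N264X.E.LinA
import Vale.Agent.N264X.E.Cont
import Vale.Agent.N264X.E.Fin

/-!
# P264: the Calabi flow has finite time singularities in every dimension `n ≥ 7`

(1) In every dimension `n ≥ 7` there is a Kähler-Einstein manifold whose Kähler class contains
forms with arbitrarily small `T_max`. (2) The measure `vol` is the volume of the Kähler form, and
the scalar curvature is integrable.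
-/

open scoped Manifold ContDiff
open Set MeasureTheory Vale.Agent.N264X

theorem Vale.Agent.Results.P264.A0DimensionSeven.result :
    (∀ n ≥ 7, ∃ (X : Type) (_ : TopologicalSpace X) (_ : T2Space X) (_ : CompactSpace X)
      (_ : ConnectedSpace X) (_ : ChartedSpace (Cn n) X) (_ : IsManifold 𝓘(ℂ, Cn n) ω X)
      (_ : MeasurableSpace X) (_ : BorelSpace X) (w : Form n X) (l : ℝ),
      IsKahler w ∧ 0 < l ∧ (∀ x, val (ric w) x = l • val w x ∧ scal w x = n * l) ∧ Tmax w = ⊤ ∧
      ∀ ε > 0, ∃ u, Smooth n u ∧ IsKahler (pert w u) ∧ Tmax (pert w u) ≤ ε) ∧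
    ∀ (n : ℕ) (X : Type) [TopologicalSpace X] [T2Space X] [CompactSpace X] [ConnectedSpace X]
      [ChartedSpace (Cn n) X] [IsManifold 𝓘(ℂ, Cn n) ω X] [MeasurableSpace X] [BorelSpace X]
      (w : Form n X), IsKahler w →
      (∀ e ∈ atlas (Cn n) X, (vol w).restrict e.source = volIn w e) ∧
      0 < vol w univ ∧ vol w univ < ⊤ ∧ Integrable (scal w) (vol w) := by
  obtain ⟨σ, hσ⟩ := P264Z.exists_shrinker
  have h := P264Z.noGlobal_of P264Z.fall Vale.Agent.P264Z.shooting (P264Z.lin_ineq P264Z.fall)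
    (P264Z.contCut P264Z.fall) hσ
  refine ⟨fun n hn => ?_, fun n X _ _ _ _ _ _ _ _ w hw => ?_⟩
  · obtain ⟨k, rfl⟩ := Nat.exists_eq_add_of_le hn
    exact examples h k
  · have hw' := kahler_iff.1 hw
    exact ⟨fun e he => vol_restrict hw' he, vol_pos hw', vol_fin hw',
      integrable_of_cont hw' (cont_scal hw')⟩
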